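import Mathlib

/-!
# Quasitraces on unital C*-algebras

`IsQuasitrace τ` : the map `τ : A → ℂ` is a quasitrace, i.e.
* `τ (x* x) = τ (x x*) ≥ 0` for all `x`,
* `τ` is linear on every commutative C*-subalgebra of `A`,
* `τ (a + i b) = τ a + i τ b` for all self-adjoint `a`, `b`.
-/

namespace Vale.Agent.H36

open Complex
open scoped ComplexStarModule

/-- A quasitrace on a unital C*-algebra `A`: `τ (x* x) = τ (x x*) ≥ 0` for all `x`, `τ` is
linear on every commutative C*-subalgebra (closed commutative star-subalgebra, unital or not)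
and `τ (a + i b) = τ a + i τ b` for self-adjoint `a`, `b`. -/
structure IsQuasitrace {A : Type*} [CStarAlgebra A] (τ : A → ℂ) : Prop where
  tracial : ∀ x : A, τ (star x * x) = τ (x * star x)
  nonneg : ∀ x : A, 0 ≤ (τ (star x * x)).re ∧ (τ (star x * x)).im = 0
  linear_on_comm : ∀ B : NonUnitalStarSubalgebra ℂ A, IsClosed (B : Set A) →
    (∀ x ∈ B, ∀ y ∈ B, x * y = y * x) →
    (∀ x ∈ B, ∀ y ∈ B, τ (x + y) = τ x + τ y) ∧ (∀ c : ℂ, ∀ x ∈ B, τ (c • x) = c * τ x)
  add_I_smul : ∀ a b : A, IsSelfAdjoint a → IsSelfAdjoint b → τ (a + I • b) = τ a + I * τ b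

namespace IsQuasitrace

variable {A : Type*} [CStarAlgebra A] {τ : A → ℂ}

/-- Linearity of a quasitrace on the commutative C*-algebra generated by a self-adjoint
element and the unit. -/
theorem linear_elemental (hτ : IsQuasitrace τ) {a : A} (ha : IsSelfAdjoint a) :
    (∀ x ∈ StarAlgebra.elemental ℂ a, ∀ y ∈ StarAlgebra.elemental ℂ a, τ (x + y) = τ x + τ y) ∧
    (∀ c : ℂ, ∀ x ∈ StarAlgebra.elemental ℂ a, τ (c • x) = c * τ x) := by
  have : IsStarNormal a := ha.isStarNormal
  have hcl : IsClosed (((StarAlgebra.elemental ℂ a).toNonUnitalStarSubalgebra :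
      NonUnitalStarSubalgebra ℂ A) : Set A) :=
    StarAlgebra.elemental.isClosed ℂ a
  have hcomm : ∀ x ∈ (StarAlgebra.elemental ℂ a).toNonUnitalStarSubalgebra,
      ∀ y ∈ (StarAlgebra.elemental ℂ a).toNonUnitalStarSubalgebra, x * y = y * x := by
    intro x hx y hy
    have := mul_comm (⟨x, hx⟩ : StarAlgebra.elemental ℂ a) ⟨y, hy⟩
    exact congrArg Subtype.val this
  exact hτ.linear_on_comm _ hcl hcomm

theorem map_zero (hτ : IsQuasitrace τ) : τ 0 = 0 := by
  have h := (hτ.linear_elemental (a := 0) (IsSelfAdjoint.zero A)).2 0 0 (zero_mem _)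
  simpa using h

/-- Homogeneity on self-adjoint elements. -/
theorem map_smul_selfAdjoint (hτ : IsQuasitrace τ) {a : A} (ha : IsSelfAdjoint a) (c : ℂ) :
    τ (c • a) = c * τ a :=
  (hτ.linear_elemental ha).2 c a (StarAlgebra.elemental.self_mem ℂ a)

theorem map_neg_selfAdjoint (hτ : IsQuasitrace τ) {a : A} (ha : IsSelfAdjoint a) :
    τ (-a) = -τ a := by
  have h := hτ.map_smul_selfAdjoint ha (-1)
  simpa using h

/-- The value on `(a + t)^2` for `a` self-adjoint and `t` real. -/
theorem map_sq_add_real (hτ : IsQuasitrace τ) {a : A} (ha : IsSelfAdjoint a) (t : ℝ) :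
    τ ((a + algebraMap ℝ A t) * (a + algebraMap ℝ A t)) =
      τ (a * a) + (2 * t : ℂ) * τ a + (t * t : ℂ) * τ 1 := by
  obtain ⟨hadd, hsmul⟩ := hτ.linear_elemental ha
  have ha_mem : a ∈ StarAlgebra.elemental ℂ a := StarAlgebra.elemental.self_mem ℂ a
  have h1_mem : (1 : A) ∈ StarAlgebra.elemental ℂ a := one_mem _
  have haa_mem : a * a ∈ StarAlgebra.elemental ℂ a := mul_mem ha_mem ha_mem
  have key : (a + algebraMap ℝ A t) * (a + algebraMap ℝ A t) =
      (a * a + (2 * t : ℂ) • a) + (t * t : ℂ) • (1 : A) := by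
    rw [IsScalarTower.algebraMap_apply ℝ ℂ A t, Algebra.algebraMap_eq_smul_one]
    simp only [add_mul, mul_add, smul_mul_assoc, mul_smul_comm, mul_one, one_mul,
      Complex.coe_algebraMap]
    module
  rw [key, hadd _ (add_mem haa_mem (SMulMemClass.smul_mem _ ha_mem)) _
    (SMulMemClass.smul_mem _ h1_mem), hadd _ haa_mem _ (SMulMemClass.smul_mem _ ha_mem),
    hsmul _ _ ha_mem, hsmul _ _ h1_mem]

/-- A quasitrace is real on self-adjoint elements. -/
theorem im_selfAdjoint (hτ : IsQuasitrace τ) {a : A} (ha : IsSelfAdjoint a) : (τ a).im = 0 := by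
  have h0 : (τ (a * a)).im = 0 := by
    have := (hτ.nonneg a).2
    rwa [ha.star_eq] at this
  have h1 : (τ 1).im = 0 := by
    have := (hτ.nonneg 1).2
    simpa using this
  have hsa : IsSelfAdjoint (a + algebraMap ℝ A 1) :=
    ha.add (IsSelfAdjoint.algebraMap A (IsSelfAdjoint.all (1 : ℝ)))
  have h2 := (hτ.nonneg (a + algebraMap ℝ A 1)).2
  rw [hsa.star_eq, hτ.map_sq_add_real ha 1] at h2
  simp only [Complex.add_im, Complex.mul_im, h0, h1] at h2
  norm_num at h2
  linarith

section Order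

variable [PartialOrder A] [StarOrderedRing A]

/-- Key step: the quadratic inequality on the positive cone forces subadditivity of the real
part on self-adjoint elements. -/
theorem re_add_le (hτ : IsQuasitrace τ)
    (H : ∀ a b : A, 0 ≤ a → 0 ≤ b →
      (τ ((a + b) * (a + b))).re ≤ 2 * (τ (a * a)).re + 2 * (τ (b * b)).re)
    {a b : A} (ha : IsSelfAdjoint a) (hb : IsSelfAdjoint b) :
    (τ (a + b)).re ≤ (τ a).re + (τ b).re := by
  by_contra hcon
  rw [not_le] at hcon
  set δ : ℝ := (τ (a + b)).re - ((τ a).re + (τ b).re) with hδ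
  have hδpos : 0 < δ := by linarith
  set C : ℝ := 2 * (τ (a * a)).re + 2 * (τ (b * b)).re - (τ ((a + b) * (a + b))).re with hC
  set t : ℝ := max (max ‖a‖ ‖b‖) (|C| / (4 * δ) + 1) with ht
  have hta : ‖a‖ ≤ t := le_trans (le_max_left _ _) (le_max_left _ _)
  have htb : ‖b‖ ≤ t := le_trans (le_max_right _ _) (le_max_left _ _)
  have htC : |C| / (4 * δ) + 1 ≤ t := le_max_right _ _
  have hpos : ∀ c : A, IsSelfAdjoint c → ‖c‖ ≤ t → 0 ≤ c + algebraMap ℝ A t := by
    intro c hc hct
    have h1 : -algebraMap ℝ A ‖c‖ ≤ c := hc.neg_algebraMap_norm_le_self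
    have h2 : algebraMap ℝ A ‖c‖ ≤ algebraMap ℝ A t := algebraMap_mono A hct
    have h3 : 0 ≤ c + algebraMap ℝ A ‖c‖ := by
      have := add_le_add h1 (le_refl (algebraMap ℝ A ‖c‖))
      simpa using this
    exact le_trans h3 (add_le_add (le_refl c) h2)
  have hab := H _ _ (hpos a ha hta) (hpos b hb htb)
  have hsum : (a + algebraMap ℝ A t) + (b + algebraMap ℝ A t) = (a + b) + algebraMap ℝ A (2 * t) := by
    rw [two_mul, map_add]; abel
  rw [hsum, hτ.map_sq_add_real (ha.add hb) (2 * t), hτ.map_sq_add_real ha t,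
    hτ.map_sq_add_real hb t] at hab
  simp only [Complex.add_re, Complex.mul_re, Complex.ofReal_re, Complex.ofReal_im,
    Complex.ofReal_mul, Complex.re_ofNat, Complex.im_ofNat, Complex.mul_im] at hab
  have h4 : 4 * t * δ ≤ C := by
    rw [hδ, hC]; nlinarith
  have h5 : |C| < 4 * t * δ := by
    have h6 : |C| / (4 * δ) < t := by linarith
    have h7 : (0 : ℝ) < 4 * δ := by linarith
    have := (div_lt_iff₀ h7).1 h6
    linarith
  have h8 : C ≤ |C| := le_abs_self C
  linarith

/-- Under the quadratic inequality on the positive cone, a quasitrace is additive on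
self-adjoint elements. -/
theorem map_add_selfAdjoint (hτ : IsQuasitrace τ)
    (H : ∀ a b : A, 0 ≤ a → 0 ≤ b →
      (τ ((a + b) * (a + b))).re ≤ 2 * (τ (a * a)).re + 2 * (τ (b * b)).re)
    {a b : A} (ha : IsSelfAdjoint a) (hb : IsSelfAdjoint b) :
    τ (a + b) = τ a + τ b := by
  have h1 := hτ.re_add_le H ha hb
  have h2 := hτ.re_add_le H ha.neg hb.neg
  have e : -a + -b = -(a + b) := by abel
  rw [e, hτ.map_neg_selfAdjoint (ha.add hb), hτ.map_neg_selfAdjoint ha,
    hτ.map_neg_selfAdjoint hb] at h2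
  simp only [Complex.neg_re] at h2
  apply Complex.ext
  · rw [Complex.add_re]; linarith
  · rw [Complex.add_im, hτ.im_selfAdjoint (ha.add hb), hτ.im_selfAdjoint ha,
      hτ.im_selfAdjoint hb]; simp

end Order

/-- Decomposition of the value of a quasitrace along real and imaginary parts. -/
theorem eq_realPart_add_I_mul_imaginaryPart (hτ : IsQuasitrace τ) (x : A) :
    τ x = τ (ℜ x : A) + I * τ (ℑ x : A) := by
  have h := hτ.add_I_smul (ℜ x : A) (ℑ x : A) (ℜ x).2 (ℑ x).2
  rwa [realPart_add_I_smul_imaginaryPart] at h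

/-- If a quasitrace is additive on self-adjoint elements, it is additive. -/
theorem map_add_of_selfAdjoint (hτ : IsQuasitrace τ)
    (hadd : ∀ a b : A, IsSelfAdjoint a → IsSelfAdjoint b → τ (a + b) = τ a + τ b) (x y : A) :
    τ (x + y) = τ x + τ y := by
  rw [hτ.eq_realPart_add_I_mul_imaginaryPart (x + y), hτ.eq_realPart_add_I_mul_imaginaryPart x,
    hτ.eq_realPart_add_I_mul_imaginaryPart y]
  have e1 : (ℜ (x + y) : A) = (ℜ x : A) + (ℜ y : A) := by simp [map_add]
  have e2 : (ℑ (x + y) : A) = (ℑ x : A) + (ℑ y : A) := by simp [map_add]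
  rw [e1, e2, hadd _ _ (ℜ x).2 (ℜ y).2, hadd _ _ (ℑ x).2 (ℑ y).2]
  ring

/-- If a quasitrace is additive on self-adjoint elements, it is complex homogeneous. -/
theorem map_smul_of_selfAdjoint (hτ : IsQuasitrace τ)
    (hadd : ∀ a b : A, IsSelfAdjoint a → IsSelfAdjoint b → τ (a + b) = τ a + τ b)
    (c : ℂ) (x : A) : τ (c • x) = c * τ x := by
  have hreal : ∀ (r : ℝ) (a : A), IsSelfAdjoint a → IsSelfAdjoint ((r : ℂ) • a) := by
    intro r a ha
    have : (r : ℂ) • a = r • a := Complex.coe_smul r a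
    rw [this]
    exact (IsSelfAdjoint.all r).smul ha
  have hc1 : (c.re : ℂ) + I * c.im = c := by rw [mul_comm]; exact Complex.re_add_im c
  have hc2 : ((-c.im : ℝ) : ℂ) + I * c.re = c * I := by
    conv_rhs => rw [← Complex.re_add_im c]
    push_cast; ring_nf; rw [Complex.I_sq]; ring
  have key : c • x = (((c.re : ℂ) • (ℜ x : A)) + (((-c.im : ℝ) : ℂ) • (ℑ x : A))) +
      I • (((c.re : ℂ) • (ℑ x : A)) + ((c.im : ℂ) • (ℜ x : A))) := by
    calc c • x = c • ((ℜ x : A) + I • (ℑ x : A)) := by rw [realPart_add_I_smul_imaginaryPart]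
      _ = c • (ℜ x : A) + (c * I) • (ℑ x : A) := by rw [smul_add, smul_smul]
      _ = ((c.re : ℂ) + I * c.im) • (ℜ x : A) + (((-c.im : ℝ) : ℂ) + I * c.re) • (ℑ x : A) := by
        rw [hc1, hc2]
      _ = _ := by module
  have hsa1 : IsSelfAdjoint (((c.re : ℂ) • (ℜ x : A)) + (((-c.im : ℝ) : ℂ) • (ℑ x : A))) :=
    (hreal _ _ (ℜ x).2).add (hreal _ _ (ℑ x).2)
  have hsa2 : IsSelfAdjoint (((c.re : ℂ) • (ℑ x : A)) + ((c.im : ℂ) • (ℜ x : A))) :=
    (hreal _ _ (ℑ x).2).add (hreal _ _ (ℜ x).2)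
  rw [key, hτ.add_I_smul _ _ hsa1 hsa2, hadd _ _ (hreal _ _ (ℜ x).2) (hreal _ _ (ℑ x).2),
    hadd _ _ (hreal _ _ (ℑ x).2) (hreal _ _ (ℜ x).2),
    hτ.map_smul_selfAdjoint (ℜ x).2, hτ.map_smul_selfAdjoint (ℑ x).2,
    hτ.map_smul_selfAdjoint (ℑ x).2, hτ.map_smul_selfAdjoint (ℜ x).2,
    hτ.eq_realPart_add_I_mul_imaginaryPart x]
  conv_rhs => rw [← Complex.re_add_im c]
  push_cast
  ring_nf
  rw [Complex.I_sq]
  ring

/-- An additive and homogeneous quasitrace has the trace property. -/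
theorem map_mul_comm_of_linear (hτ : IsQuasitrace τ)
    (hadd : ∀ x y : A, τ (x + y) = τ x + τ y) (hsmul : ∀ (c : ℂ) (x : A), τ (c • x) = c * τ x)
    (x y : A) : τ (x * y) = τ (y * x) := by
  have key : ∀ u v : A, τ (star u * v) = τ (v * star u) := by
    intro u v
    have h1 := hτ.tracial (u + v)
    have h2 := hτ.tracial (u + I • v)
    have hu := hτ.tracial u
    have hv := hτ.tracial v
    simp only [star_add, add_mul, mul_add, star_smul, smul_mul_assoc, mul_smul_comm, hadd, hsmul,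
      Complex.star_def, Complex.conj_I] at h1 h2
    have e1 : I * (-I * τ (star v * v)) = τ (star v * v) := by
      rw [← mul_assoc, mul_neg, Complex.I_mul_I]; ring
    have e2 : -I * (I * τ (v * star v)) = τ (v * star v) := by
      rw [← mul_assoc, neg_mul, Complex.I_mul_I]; ring
    rw [e1, e2] at h2
    have h3 : I * ((τ (star u * v) - τ (star v * u)) - (τ (v * star u) - τ (u * star v))) = 0 := by
      linear_combination h2 - hu - hv
    have h4 : (τ (star u * v) - τ (star v * u)) - (τ (v * star u) - τ (u * star v)) = 0 := by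
      rcases mul_eq_zero.1 h3 with h | h
      · exact absurd h Complex.I_ne_zero
      · exact h
    linear_combination (1 / 2 : ℂ) * h1 + (1 / 2 : ℂ) * h4 - (1 / 2 : ℂ) * hu - (1 / 2 : ℂ) * hv
  have := key (star x) y
  rwa [star_star] at this

/-- For a linear tracial quasitrace and self-adjoint `a`, `b`, the value of
`t ↦ τ ((a + t b)^2)` is the real quadratic polynomial `p + 2 r t + q t^2`, and it is
nonnegative. -/
theorem quadratic_nonneg_of_linear (hτ : IsQuasitrace τ)
    (hadd : ∀ x y : A, τ (x + y) = τ x + τ y) (hsmul : ∀ (c : ℂ) (x : A), τ (c • x) = c * τ x)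
    (hcomm : ∀ x y : A, τ (x * y) = τ (y * x)) {a b : A} (ha : IsSelfAdjoint a)
    (hb : IsSelfAdjoint b) (t : ℝ) :
    0 ≤ (τ (b * b)).re * (t * t) + (2 * (τ (a * b)).re) * t + (τ (a * a)).re := by
  have hsa : IsSelfAdjoint (a + (t : ℂ) • b) := by
    have : (t : ℂ) • b = t • b := Complex.coe_smul t b
    rw [this]
    exact ha.add ((IsSelfAdjoint.all t).smul hb)
  have h := (hτ.nonneg (a + (t : ℂ) • b)).1
  rw [hsa.star_eq] at h
  simp only [add_mul, mul_add, smul_mul_assoc, mul_smul_comm, hadd, hsmul, hcomm b a] at h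
  simp only [Complex.add_re, Complex.mul_re, Complex.ofReal_re, Complex.ofReal_im, zero_mul,
    sub_zero, Complex.mul_im, add_zero] at h
  nlinarith

/-- The quadratic inequality for a linear tracial quasitrace. -/
theorem quadratic_of_linear (hτ : IsQuasitrace τ)
    (hadd : ∀ x y : A, τ (x + y) = τ x + τ y) (hsmul : ∀ (c : ℂ) (x : A), τ (c • x) = c * τ x)
    (hcomm : ∀ x y : A, τ (x * y) = τ (y * x)) {a b : A} (ha : IsSelfAdjoint a)
    (hb : IsSelfAdjoint b) :
    (τ ((a + b) * (a + b))).re ≤ 2 * (τ (a * a)).re + 2 * (τ (b * b)).re := by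
  have h := hτ.quadratic_nonneg_of_linear hadd hsmul hcomm ha hb (-1)
  simp only [add_mul, mul_add, hadd, hcomm b a, Complex.add_re]
  linarith

/-- The triangle inequality for the 2-seminorm of a linear tracial quasitrace. -/
theorem triangle_of_linear (hτ : IsQuasitrace τ)
    (hadd : ∀ x y : A, τ (x + y) = τ x + τ y) (hsmul : ∀ (c : ℂ) (x : A), τ (c • x) = c * τ x)
    (hcomm : ∀ x y : A, τ (x * y) = τ (y * x)) {a b : A} (ha : IsSelfAdjoint a)
    (hb : IsSelfAdjoint b) :
    Real.sqrt (τ ((a + b) * (a + b))).re ≤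
      Real.sqrt (τ (a * a)).re + Real.sqrt (τ (b * b)).re := by
  have hp : 0 ≤ (τ (a * a)).re := by
    have := (hτ.nonneg a).1
    rwa [ha.star_eq] at this
  have hq : 0 ≤ (τ (b * b)).re := by
    have := (hτ.nonneg b).1
    rwa [hb.star_eq] at this
  have hdisc := discrim_le_zero (hτ.quadratic_nonneg_of_linear hadd hsmul hcomm ha hb)
  rw [discrim] at hdisc
  have hr : (τ (a * b)).re ^ 2 ≤ (τ (a * a)).re * (τ (b * b)).re := by nlinarith
  have hr' : (τ (a * b)).re ≤ Real.sqrt (τ (a * a)).re * Real.sqrt (τ (b * b)).re := by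
    rw [← Real.sqrt_mul hp]
    exact le_trans (le_abs_self _) (Real.abs_le_sqrt hr)
  rw [Real.sqrt_le_iff]
  refine ⟨add_nonneg (Real.sqrt_nonneg _) (Real.sqrt_nonneg _), ?_⟩
  simp only [add_mul, mul_add, hadd, hcomm b a, Complex.add_re]
  have e1 := Real.sq_sqrt hp
  have e2 := Real.sq_sqrt hq
  nlinarith

end IsQuasitrace

end Vale.Agent.H36
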